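import Mathlib.Analysis.SpecialFunctions.Trigonometric.DerivHyp
import Vale.Agent.P161.Converse
import Vale.Agent.P161.Crit.Factor

/-!
# P161: the factor of IID threshold of the free Ising measure on a regular tree
-/

open MeasureTheory Vale.Agent.P161

namespace Vale.Agent.Results.P161.Threshold

/-- For every `d ≥ 3`, every `d`-regular tree and every `β ≥ 0`, the free Ising measure exists and
is a factor of IID exactly when `tanh β ≤ (d-1)^(-1/2)`. -/
theorem result {V : Type*} (G : SimpleGraph V) (d : ℕ) (β : ℝ) (hd : 3 ≤ d) (hT : G.IsTree)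
    (hdeg : ∀ v, (G.neighborSet v).ncard = d) (hβ : 0 ≤ β) :
    (∃ μ, IsFreeIsing G (Real.tanh β) μ) ∧
      ∀ μ, IsFreeIsing G (Real.tanh β) μ →
        (IsFactorOfIID G μ ↔ Real.tanh β ≤ 1 / Real.sqrt ((d : ℝ) - 1)) := by
  have h0 : 0 ≤ Real.tanh β := by
    rw [Real.tanh_eq_sinh_div_cosh]
    exact div_nonneg (Real.sinh_nonneg_iff.2 hβ) (Real.cosh_pos β).le
  have hfin : ∀ v, (G.neighborSet v).Finite := fun v =>
    Set.finite_of_ncard_pos (by rw [hdeg]; omega)
  refine ⟨exists_isFreeIsing hT hfin (Real.abs_tanh_lt_one β).le, fun μ hμ => ⟨fun h => ?_,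
    fun h => ?_⟩⟩
  · by_contra hlt
    exact not_isFactorOfIID hd hT hdeg (Real.tanh_lt_one β) (not_le.1 hlt) hμ h
  · rcases h.lt_or_eq with hlt | heq
    · exact (isFactorOfIID_of_lt hd hT hdeg h0 hlt).2 μ hμ
    · exact Crit.isFactorOfIID_critical hd hT hdeg (heq ▸ hμ)

end Vale.Agent.Results.P161.Threshold
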